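import Vale.Agent.P122.E.Defs
import Vale.Agent.P127.U.FillB

/-!
# P122 / H912 : entropy of a node which is known up to `2^p` caps, `2^q` offsets, `2^r` times (helper912)
-/

set_option autoImplicit false

namespace Vale.Agent.P122.H912

open Filter Topology Finset Vale.Agent.P127 Vale.Agent.P127.Stk Vale.Agent.P127.U Vale.Agent.P127.U.Sys
  Vale.Agent.P122.C2 Vale.Agent.P122.E

section finite

variable {Ω : Type} [Fintype Ω] {T : Type*}

theorem card_Icc_le (x : ℤ) (C p : ℕ) : (Finset.Icc (x - ((C * 2 ^ p : ℕ) : ℤ)) (x + ((C * 2 ^ p : ℕ) : ℤ))).card ≤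
    (2 * C + 1) * 2 ^ p := by
  have h1 : 1 ≤ 2 ^ p := Nat.one_le_two_pow
  rw [Int.card_Icc]
  have h2 : ((2 * C + 1) * 2 ^ p : ℕ) = 2 * (C * 2 ^ p) + 2 ^ p := by ring
  rw [h2]
  omega

theorem card_box_le (x : Z2) (C p : ℕ) :
    (Fintype.piFinset fun k => Finset.Icc (x k - ((C * 2 ^ p : ℕ) : ℤ)) (x k + ((C * 2 ^ p : ℕ) : ℤ))).card ≤
    (2 * C + 1) ^ 2 * 2 ^ (2 * p) := by
  rw [Fintype.card_piFinset, Fin.prod_univ_two]
  have h := Nat.mul_le_mul (card_Icc_le (x 0) C p) (card_Icc_le (x 1) C p)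
  refine h.trans (le_of_eq ?_)
  ring

/-- a node known up to `C 2^p` caps, `C 2^q` offsets, `C 2^r` times, finite form -/
theorem hc_nd_fin (P : Law Ω) (X : Ω → Nd) (Y : Ω → T) (C p q r : ℕ)
    (h : ∀ ω ω', 0 < P.w ω → 0 < P.w ω' → Y ω' = Y ω →
      (∀ k, |(X ω').τ k - (X ω).τ k| ≤ ((C * 2 ^ p : ℕ) : ℤ)) ∧
      (∀ k, |(X ω').o k - (X ω).o k| ≤ ((C * 2 ^ q : ℕ) : ℤ)) ∧ |(X ω').T - (X ω).T| ≤ ((C * 2 ^ r : ℕ) : ℤ)) :
    Stk.hc P X Y ≤ ((2 * p + 2 * q + r : ℕ) : ℝ) * Real.log 2 + Real.log (((2 * C + 1) ^ 5 : ℕ) : ℝ) := by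
  classical
  have h1 := Stk.hc_le_log P X Y ((2 * C + 1) ^ 5 * 2 ^ (2 * p + 2 * q + r)) fun ω hω => by
    refine ⟨((Fintype.piFinset fun k => Finset.Icc ((X ω).τ k - ((C * 2 ^ p : ℕ) : ℤ)) ((X ω).τ k + ((C * 2 ^ p : ℕ) : ℤ))) ×ˢ
      ((Fintype.piFinset fun k => Finset.Icc ((X ω).o k - ((C * 2 ^ q : ℕ) : ℤ)) ((X ω).o k + ((C * 2 ^ q : ℕ) : ℤ))) ×ˢ
      (Finset.Icc ((X ω).T - ((C * 2 ^ r : ℕ) : ℤ)) ((X ω).T + ((C * 2 ^ r : ℕ) : ℤ))))).image
      (fun a => (⟨a.1, a.2.1, a.2.2⟩ : Nd)), ?_, ?_⟩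
    · refine Finset.card_image_le.trans ?_
      rw [Finset.card_product, Finset.card_product]
      have a1 := card_box_le (X ω).τ C p
      have a2 := card_box_le (X ω).o C q
      have a3 := card_Icc_le (X ω).T C r
      have a4 := Nat.mul_le_mul a1 (Nat.mul_le_mul a2 a3)
      refine a4.trans (le_of_eq ?_)
      rw [pow_add, pow_add]
      ring
    · intro ω' hω' e
      obtain ⟨b1, b2, b3⟩ := h ω ω' hω hω' e
      rw [Finset.mem_image]
      refine ⟨((X ω').τ, (X ω').o, (X ω').T), ?_, rfl⟩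
      rw [Finset.mem_product, Finset.mem_product, Fintype.mem_piFinset, Fintype.mem_piFinset, Finset.mem_Icc]
      refine ⟨fun k => ?_, fun k => ?_, ?_⟩
      · have := abs_le.1 (b1 k)
        rw [Finset.mem_Icc]
        constructor <;> linarith [this.1, this.2]
      · have := abs_le.1 (b2 k)
        rw [Finset.mem_Icc]
        constructor <;> linarith [this.1, this.2]
      · have := abs_le.1 b3
        constructor <;> linarith [this.1, this.2]
  refine h1.trans (le_of_eq ?_)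
  have hC : (((2 * C + 1) ^ 5 : ℕ) : ℝ) ≠ 0 := by positivity
  rw [Nat.cast_mul, Real.log_mul hC (by positivity), Nat.cast_pow (2:ℕ), Real.log_pow]
  push_cast
  ring

end finite

section systems

variable {S : Sys} {γ : Type*}

/-- entropy bounded by a number of digits -/
theorem hc_le_nu {α : Type*} {X : S.RV α} {Y : S.RV γ} {n : ℕ → ℕ} (hn : S.Bd n) (c : ℝ)
    (h : ∀ᶠ i in (uf : Filter ℕ), Stk.hc (S.P i) (X i) (Y i) ≤ (n i : ℝ) * Real.log 2 + c) : S.hc X Y ≤ S.nu n := by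
  obtain ⟨C, hC⟩ := hn
  have u1 : UB fun i => (n i : ℝ) / S.L i := by
    refine UB.of_le (C := C) (Eventually.of_forall fun i => by positivity) ?_
    filter_upwards [hC, S.L_pos] with i h1 h2
    rw [div_le_iff₀ (by exact_mod_cast h2)]
    exact h1
  have u2 : UB fun i => Stk.hc (S.P i) (X i) (Y i) / S.nm i := by
    refine UB.of_le (C := C + 1) ?_ ?_
    · filter_upwards [S.nm_pos] with i hi
      exact div_nonneg (Stk.hc_nonneg _ _ _) hi.le
    · filter_upwards [S.nm_pos, h, hC, S.nm_tendsto.eventually_ge_atTop c] with i h1 h2 h3 h4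
      rw [div_le_iff₀ h1]
      have h5 : (n i : ℝ) * Real.log 2 ≤ C * S.L i * Real.log 2 :=
        mul_le_mul_of_nonneg_right h3 (Real.log_nonneg (by norm_num))
      have h6 : C * S.L i * Real.log 2 = C * S.nm i := by unfold nm; ring
      linarith
  refine ulim_le_of_sub u2 u1 (S.const_div_nm c) ?_
  filter_upwards [S.nm_pos, h] with i h1 h2
  have e : (n i : ℝ) / S.L i = (n i : ℝ) * Real.log 2 / S.nm i := by
    unfold nm at h1 ⊢
    have hl : Real.log 2 ≠ 0 := (Real.log_pos (by norm_num)).ne'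
    have hL : (S.L i : ℝ) ≠ 0 := fun h0 => by rw [h0, zero_mul] at h1; exact lt_irrefl _ h1
    field_simp
  rw [e, ← add_div]
  exact div_le_div_of_nonneg_right h2 h1.le

/-- a node known up to `C 2^p` caps, `C 2^q` offsets, `C 2^r` times -/
theorem hc_nd_le {X : S.RV Nd} {Y : S.RV γ} (C : ℕ) (p q r : ℕ → ℕ) (hn : S.Bd fun i => 2 * p i + 2 * q i + r i)
    (h : ∀ᶠ i in (uf : Filter ℕ), ∀ ω ω', 0 < (S.P i).w ω → 0 < (S.P i).w ω' → Y i ω' = Y i ω →
      (∀ k, |(X i ω').τ k - (X i ω).τ k| ≤ ((C * 2 ^ p i : ℕ) : ℤ)) ∧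
      (∀ k, |(X i ω').o k - (X i ω).o k| ≤ ((C * 2 ^ q i : ℕ) : ℤ)) ∧
      |(X i ω').T - (X i ω).T| ≤ ((C * 2 ^ r i : ℕ) : ℤ)) :
    S.hc X Y ≤ S.nu fun i => 2 * p i + 2 * q i + r i := by
  refine hc_le_nu hn (Real.log (((2 * C + 1) ^ 5 : ℕ) : ℝ)) ?_
  filter_upwards [h] with i hi
  exact hc_nd_fin (S.P i) (X i) (Y i) C (p i) (q i) (r i) hi

end systems

end Vale.Agent.P122.H912
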