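import Vale.Agent.P122.H912.Cnt
import Vale.Agent.P122.K931.Zero
import Vale.Agent.P122.H518.E12
import Vale.Agent.P122.H823.Lst
import Vale.Agent.P122.H655.E3

/-!
# P122 / H912 : the inputs of the lower bound of the values of the cut boxes (helper912)

* `low_W` : `e c' + (2 c' / K - ν kk - ν jj) - 1 / K ≤ h(N c' | W c', ball c')`
* `low_ball` : `h(ball c | ball c') ≤ 6 (c' - c) / K`
* `low_sig` : the piece `sig c d` is a function of the tube of its line and of the ball
* `low_N` : `h(N c' | tube of the line of the piece, ball c) ≤ 4 (d - c) / K + 2 (c' - c) / K`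
-/

set_option autoImplicit false

namespace Vale.Agent.P122.H912

open Filter Topology Finset Vale.Agent.P127 Vale.Agent.P127.Stk Vale.Agent.P127.U Vale.Agent.P127.U.Sys
  Vale.Agent.P122.C2 Vale.Agent.P122.E Vale.Agent.P122.K931

variable {K : ℕ} {F : Flg K}

/-- **(V3)** -/
theorem low_W {J θ H e : ℕ → ℝ} {W : ℕ → F.S.BX} {kk jj : ℕ → ℕ → ℕ} (hK : 1 ≤ K) (R : RegA F J θ H e W kk jj) {c : ℕ}
    (hc : c ≤ K) :
    e c + (2 * c / K - F.S.nu (kk c) - F.S.nu (jj c)) - 1 / K ≤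
      F.S.hc (F.N c) (Sys.pr (BX.lab (W c)) (F.ball c)) := by
  have h1 : F.S.hc (F.N c) (one (S := F.S)) = H c := (H518.e1 F J θ H e W kk jj hK R).1 c hc
  have h2 := H518.cnt_hc_le (R.W1 c hc)
  have tW : Tame (Sys.pr (BX.lab (W c)) (F.ball c)) := H518.cnt_tame (R.W1 c hc)
  have h3 := hc_le_add (tame_N F hK hc) tW (one (S := F.S))
  have h4 : F.S.hc (F.N c) (Sys.pr (Sys.pr (BX.lab (W c)) (F.ball c)) one) ≤
      F.S.hc (F.N c) (Sys.pr (BX.lab (W c)) (F.ball c)) :=
    hc_mono_right (tame_N F hK hc) (Eventually.of_forall fun _ _ _ _ _ e => congrArg Prod.fst e)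
  linarith

/-- **(V4)** -/
theorem low_ball (hK : 1 ≤ K) {c c' : ℕ} (hcc : c ≤ c') (hc' : c' ≤ K) :
    F.S.hc (F.ball c) (F.ball c') ≤ 6 * ((c':ℝ) - c) / K := by
  set X : F.S.RV Nd := fun i ω => ⟨0, (F.ball c i ω).2, (F.ball c i ω).1⟩ with hX
  set C1 : ℕ := ⌈2 * ((F.C + 2) * K) + 3⌉₊ with hC1
  have hC1' : 2 * ((F.C + 2) * K) + 3 ≤ (C1 : ℝ) := Nat.le_ceil _
  have hCn : 0 ≤ F.C := C_nonneg F
  have h1 : F.S.hc X (F.ball c') ≤ F.S.nu fun i => 2 * 0 + 2 * (2 * (c' - c) * F.n i) + 2 * (c' - c) * F.n i := by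
    refine hc_nd_le (C1 + 1) (fun _ => 0) (fun i => 2 * (c' - c) * F.n i) (fun i => 2 * (c' - c) * F.n i) ?_ ?_
    · have := bd_mul F hK (6 * (c' - c))
      refine (congrArg F.S.Bd (funext fun i => ?_)).mp this
      ring
    · refine Eventually.of_forall fun i ω ω' p p' e => ?_
      have hg := chn_of F p
      have hg' := chn_of F p'
      set n := F.n i with hn
      have eT : (F.N c' i ω').T = (F.N c' i ω).T := congrArg Prod.fst e
      have eo : ∀ k, (F.N c' i ω').o k / 2 ^ (c' * n) = (F.N c' i ω).o k / 2 ^ (c' * n) := fun k =>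
        congrFun (congrArg Prod.snd e) k
      have hq : (1:ℕ) ≤ 2 ^ (2 * (c' - c) * n) := Nat.one_le_two_pow
      refine ⟨fun k => by simp only [hX, sub_self, abs_zero]; positivity, fun k => ?_, ?_⟩
      · show |(F.N c i ω').o k / 2 ^ (c * n) - (F.N c i ω).o k / 2 ^ (c * n)| ≤ _
        have a1 := hg.posn (F.slp i) hcc hc' k
        have a1' := hg'.posn (F.slp i) hcc hc' k
        have a2 := hg.tm_sub_nonneg hcc hc'
        have a2' := hg'.tm_sub_nonneg hcc hc'
        have a3 := hg.tm_sub_le hcc hc'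
        have a3' := hg'.tm_sub_le hcc hc'
        have s1 := (F.slp i).bd c' (F.N c' i ω).τ k hc' (hg.cap c' hc')
        have s1' := (F.slp i).bd c' (F.N c' i ω').τ k hc' (hg'.cap c' hc')
        have b1 : |((F.N c' i ω').o k : ℝ) - (F.N c' i ω).o k| ≤ (2 ^ (c' * n) : ℕ) :=
          close_of_ediv (by positivity) (by push_cast; exact eo k)
        unfold H474.ps at a1 a1'
        set t := H474.tm n c (F.N c i ω) - H474.tm n c' (F.N c' i ω) with ht
        set t' := H474.tm n c (F.N c i ω') - H474.tm n c' (F.N c' i ω') with ht'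
        have p2 : (0:ℝ) < 2 ^ (2 * c * n) := by positivity
        have t1 : |t * F.s i c' (F.N c' i ω).τ k| ≤ 2 ^ (2 * c' * n) := by
          rw [abs_mul, abs_of_nonneg a2]
          calc t * |F.s i c' (F.N c' i ω).τ k| ≤ 2 ^ (2 * c' * n) * 1 :=
                mul_le_mul (by linarith) s1 (abs_nonneg _) (by positivity)
            _ = _ := mul_one _
        have t1' : |t' * F.s i c' (F.N c' i ω').τ k| ≤ 2 ^ (2 * c' * n) := by
          rw [abs_mul, abs_of_nonneg a2']
          calc t' * |F.s i c' (F.N c' i ω').τ k| ≤ 2 ^ (2 * c' * n) * 1 :=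
                mul_le_mul (by linarith) s1' (abs_nonneg _) (by positivity)
            _ = _ := mul_one _
        have hcc' : (0:ℝ) ≤ (c':ℝ) - c := by
          have : (c:ℝ) ≤ c' := by exact_mod_cast hcc
          linarith
        have hcK : (c':ℝ) - c ≤ K := by
          have h1 : (c':ℝ) ≤ K := by exact_mod_cast hc'
          have h2 : (0:ℝ) ≤ c := Nat.cast_nonneg _
          linarith
        have e2 : (2:ℝ) ^ (2 * c' * n) = 2 ^ (c' * n) * 2 ^ (c' * n) := by
          rw [← pow_add]; congr 1; ring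
        have one1 : (1:ℝ) ≤ 2 ^ (c' * n) := one_le_pow₀ (by norm_num)
        have pc' : (0:ℝ) < 2 ^ (c' * n) := by positivity
        have a4 : (F.C + 2) * ((c':ℝ) - c) * 2 ^ (c' * n) ≤ (F.C + 2) * K * 2 ^ (2 * c' * n) := by
          have h1 : (F.C + 2) * ((c':ℝ) - c) ≤ (F.C + 2) * K := mul_le_mul_of_nonneg_left hcK (by linarith)
          have h2 : (2:ℝ) ^ (c' * n) ≤ 2 ^ (2 * c' * n) := by rw [e2]; nlinarith
          exact mul_le_mul h1 h2 pc'.le (by positivity)
        have b2 : |2 ^ (c' * n) * ((F.N c' i ω').o k : ℝ) - 2 ^ (c' * n) * ((F.N c' i ω).o k : ℝ)| ≤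
            2 ^ (2 * c' * n) := by
          rw [← mul_sub, abs_mul, abs_of_pos pc', e2]
          exact mul_le_mul_of_nonneg_left (by exact_mod_cast b1) pc'.le
        have b3 : |2 ^ (c * n) * ((F.N c i ω').o k : ℝ) - 2 ^ (c * n) * ((F.N c i ω).o k : ℝ)| ≤
            (2 * ((F.C + 2) * K) + 3) * 2 ^ (2 * c' * n) := by
          rw [abs_le] at a1 a1' t1 t1' b2 ⊢
          constructor <;> linarith [a1.1, a1.2, a1'.1, a1'.2, t1.1, t1.2, t1'.1, t1'.2, b2.1, b2.2]
        have pc : (0:ℝ) < 2 ^ (c * n) := by positivity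
        have b4 : |((F.N c i ω').o k : ℝ) - ((F.N c i ω).o k : ℝ)| ≤
            ((C1 * 2 ^ (2 * (c' - c) * n) : ℕ) : ℝ) * ((2 ^ (c * n) : ℕ) : ℝ) := by
          rw [← mul_sub, abs_mul, abs_of_pos pc] at b3
          have e3 : (2:ℝ) ^ (2 * c' * n) = 2 ^ (c * n) * (2 ^ (2 * (c' - c) * n) * 2 ^ (c * n)) := by
            rw [← pow_add, ← pow_add]
            congr 1
            obtain ⟨u, rfl⟩ := Nat.exists_eq_add_of_le hcc
            rw [Nat.add_sub_cancel_left]
            ring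
          have b5 : 2 ^ (c * n) * |((F.N c i ω').o k : ℝ) - ((F.N c i ω).o k : ℝ)| ≤
              2 ^ (c * n) * ((2 * ((F.C + 2) * K) + 3) * (2 ^ (2 * (c' - c) * n) * 2 ^ (c * n))) := by
            refine b3.trans (le_of_eq ?_)
            rw [e3]
            ring
          have b6 := le_of_mul_le_mul_left b5 pc
          refine b6.trans ?_
          push_cast
          rw [← mul_assoc]
          have : (2 * ((F.C + 2) * K) + 3) * 2 ^ (2 * (c' - c) * n) ≤ (C1:ℝ) * 2 ^ (2 * (c' - c) * n) :=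
            mul_le_mul_of_nonneg_right hC1' (by positivity)
          exact mul_le_mul_of_nonneg_right this pc.le
        have b7 := ediv_close (by positivity) b4
        push_cast at b7 ⊢
        refine b7.trans ?_
        have hq' : (1:ℤ) ≤ 2 ^ (2 * (c' - c) * n) := by exact_mod_cast hq
        linarith
      · show |(F.N c i ω').T - (F.N c i ω).T| ≤ _
        have a1 := hg.T_eq hcc hc'
        have a1' := hg'.T_eq hcc hc'
        have a2 : |((F.N c i ω').T : ℝ) - (F.N c i ω).T| ≤ (2 ^ (2 * (c' - c) * n) : ℕ) := by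
          refine close_of_ediv (by positivity) ?_
          push_cast
          rw [← a1, ← a1', eT]
        have a3 : |(F.N c i ω').T - (F.N c i ω).T| ≤ ((2 ^ (2 * (c' - c) * n) : ℕ) : ℤ) := by exact_mod_cast a2
        refine a3.trans ?_
        exact_mod_cast (by nlinarith : 2 ^ (2 * (c' - c) * n) ≤ (C1 + 1) * 2 ^ (2 * (c' - c) * n))
  have h2 : F.S.hc (F.ball c) (F.ball c') = F.S.hc X (F.ball c') := by
    refine hc_congr ?_ ?_ (Eventually.of_forall fun _ _ _ _ _ e => e) (Eventually.of_forall fun _ _ _ _ _ e => e)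
    · refine Eventually.of_forall fun i ω ω' _ _ e => ?_
      have e1 : X i ω = X i ω' := congrArg Prod.fst e
      have e2 : (X i ω).T = (X i ω').T := congrArg Nd.T e1
      have e3 : (X i ω).o = (X i ω').o := congrArg Nd.o e1
      exact Prod.ext e2 e3
    · refine Eventually.of_forall fun i ω ω' _ _ e => ?_
      have e1 : F.ball c i ω = F.ball c i ω' := congrArg Prod.fst e
      show (⟨0, (F.ball c i ω).2, (F.ball c i ω).1⟩ : Nd) = ⟨0, (F.ball c i ω').2, (F.ball c i ω').1⟩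
      rw [e1]
  rw [h2]
  refine h1.trans (le_of_eq ?_)
  have h3 := nu_mul F hK (6 * (c' - c))
  have h4 : (fun i => 2 * 0 + 2 * (2 * (c' - c) * F.n i) + 2 * (c' - c) * F.n i) = fun i => 6 * (c' - c) * F.n i := by
    funext i
    ring
  rw [h4, h3]
  push_cast [Nat.cast_sub hcc]
  ring

/-- the cap of the piece -/
theorem sig_tau {c d : ℕ} (hcd : c ≤ d) (hd : d ≤ 2 * c) (hc : c ≤ K) {i : ℕ} {ω : F.S.Ω i} (p : 0 < (F.S.P i).w ω) :
    (F.sig c d i ω).τ = (F.N (2 * c - d) i ω).τ := by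
  funext k
  have h := (chn_of F p).tau_eq (c := 2 * c - d) (d := c) (by omega) hc k
  rw [h]
  show (F.N c i ω).τ k / 2 ^ ((d - c) * F.n i) = _
  congr 3
  omega

/-- the ball of the piece -/
theorem sig_ball {c d : ℕ} (hcd : c ≤ d) (hd : d ≤ 2 * c) (i : ℕ) (ω : F.S.Ω i) (k : Fin 2) :
    (F.sig c d i ω).o k / 2 ^ ((2 * c - d) * F.n i) = (F.ball c i ω).2 k := by
  show (F.N c i ω).o k / 2 ^ ((d - c) * F.n i) / 2 ^ ((2 * c - d) * F.n i) = (F.N c i ω).o k / 2 ^ (c * F.n i)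
  rw [Int.ediv_ediv_of_nonneg (by positivity), ← pow_add, ← add_mul]
  congr 3
  omega

/-- **(V5), first part** the piece is a function of the tube of its line and of the ball -/
theorem low_sig {c d : ℕ} (hcd : c ≤ d) (hd : d ≤ 2 * c) (hc : c ≤ K) :
    F.S.hc (F.sig c d) (Sys.pr (tbs (F.m (2 * c - d)) (F.lst c d)) (F.ball c)) = 0 := by
  refine zero_nd (⌈3 * F.C⌉₊ + 1) _ _ (Eventually.of_forall fun i ω ω' p p' e => ?_)
  have eb : F.ball c i ω' = F.ball c i ω := congrArg Prod.snd e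
  have et : tb (F.m (2 * c - d) i) (F.lst c d i ω') = tb (F.m (2 * c - d) i) (F.lst c d i ω) := congrArg Prod.fst e
  have e1 : ∀ k, fl1 (F.m (2 * c - d) i) ((F.lst c d i ω').1 k) = fl1 (F.m (2 * c - d) i) ((F.lst c d i ω).1 k) :=
    fun k => congrFun (congrArg Prod.fst et) k
  have e2 : ∀ k, fl1 (F.m (2 * c - d) i) ((F.lst c d i ω').2 k) = fl1 (F.m (2 * c - d) i) ((F.lst c d i ω).2 k) :=
    fun k => congrFun (congrArg Prod.snd et) k
  have hN : F.m (2 * c - d) i = (2 * c - d) * F.n i := rfl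
  rw [hN] at e1 e2
  set N := (2 * c - d) * F.n i with hNd
  have pN : (0:ℝ) < 2 ^ N := by positivity
  have hhalf : (1 / 2 : ℝ) ^ N = 1 / 2 ^ N := by rw [div_pow, one_pow]
  refine ⟨congrArg Prod.fst eb, fun k => ?_, fun k => ?_⟩
  · have cp : ∀ {ω : F.S.Ω i}, 0 < (F.S.P i).w ω → Cap (F.n i) (2 * c - d) (F.sig c d i ω).τ := fun {ω} p => by
      rw [sig_tau hcd hd hc p]
      exact (chn_of F p).cap _ (by omega)
    have h1 := (F.slp i).colip (2 * c - d) _ _ (by omega) (cp p') (cp p)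
    have h2 : ∀ k, |F.s i (2 * c - d) (F.sig c d i ω').τ k - F.s i (2 * c - d) (F.sig c d i ω).τ k| ≤ 1 / 2 ^ N :=
      fun k => by
        rw [← hhalf]
        exact U.fl1_close (e2 k)
    have hC := C_nonneg F
    have h3 : F.C * (2 ^ N * (|F.s i (2 * c - d) (F.sig c d i ω').τ 0 - F.s i (2 * c - d) (F.sig c d i ω).τ 0| +
        |F.s i (2 * c - d) (F.sig c d i ω').τ 1 - F.s i (2 * c - d) (F.sig c d i ω).τ 1|) + 1) ≤ 3 * F.C := by
      have h4 : 2 ^ N * (|F.s i (2 * c - d) (F.sig c d i ω').τ 0 - F.s i (2 * c - d) (F.sig c d i ω).τ 0| +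
        |F.s i (2 * c - d) (F.sig c d i ω').τ 1 - F.s i (2 * c - d) (F.sig c d i ω).τ 1|) ≤ 2 := by
        have h5 := mul_le_mul_of_nonneg_left (add_le_add (h2 0) (h2 1)) pN.le
        refine h5.trans (le_of_eq ?_)
        field_simp
        norm_num
      nlinarith
    have h6 := h1.trans h3
    have h7 : |((F.sig c d i ω').τ k : ℝ) - (F.sig c d i ω).τ k| ≤ 3 * F.C := by
      have a0 := abs_nonneg (((F.sig c d i ω').τ 0 : ℝ) - (F.sig c d i ω).τ 0)
      have a1 := abs_nonneg (((F.sig c d i ω').τ 1 : ℝ) - (F.sig c d i ω).τ 1)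
      fin_cases k
      · exact (le_add_of_nonneg_right a1).trans h6
      · exact (le_add_of_nonneg_left a0).trans h6
    have h8 : |((F.sig c d i ω').τ k : ℝ) - (F.sig c d i ω).τ k| ≤ (⌈3 * F.C⌉₊ : ℝ) + 1 :=
      h7.trans ((Nat.le_ceil _).trans (by linarith))
    exact_mod_cast h8
  · have h1 := U.fl1_close (e1 k)
    have h2 := sig_ball (F := F) hcd hd i ω k
    have h3 := sig_ball (F := F) hcd hd i ω' k
    rw [eb, ← h2] at h3
    have h4 := H474.ediv_real ((F.sig c d i ω).o k) N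
    have h5 := H474.ediv_real ((F.sig c d i ω').o k) N
    rw [h3] at h5
    have f1 : ∀ ω, (F.lst c d i ω).1 k = (((F.sig c d i ω).o k % 2 ^ N : ℤ) : ℝ) / 2 ^ N := fun ω => by
      show Int.fract (((F.sig c d i ω).o k : ℝ) / 2 ^ N) = _
      exact H655.fract_eq _ _
    rw [f1, f1] at h1
    have h6 : ((F.sig c d i ω').o k : ℝ) / 2 ^ N - ((F.sig c d i ω).o k : ℝ) / 2 ^ N =
        (((F.sig c d i ω').o k % 2 ^ N : ℤ) : ℝ) / 2 ^ N - (((F.sig c d i ω).o k % 2 ^ N : ℤ) : ℝ) / 2 ^ N := by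
      rw [h4, h5]
      ring
    rw [← h6, hhalf, ← sub_div, abs_div, abs_of_pos pN, div_le_div_iff_of_pos_right pN] at h1
    have h7 : |(F.sig c d i ω').o k - (F.sig c d i ω).o k| ≤ 1 := by exact_mod_cast h1
    refine h7.trans ?_
    push_cast
    linarith [Nat.cast_nonneg (α := ℤ) ⌈3 * F.C⌉₊]

/-- the node given its piece -/
theorem hc_N_sig (hK : 1 ≤ K) {c d : ℕ} (hcd : c ≤ d) : F.S.hc (F.N c) (F.sig c d) ≤ 4 * ((d:ℝ) - c) / K := by
  have h1 : F.S.hc (F.N c) (F.sig c d) ≤ F.S.nu fun i => 2 * ((d - c) * F.n i) + 2 * ((d - c) * F.n i) + 0 := by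
    refine hc_nd_le 1 (fun i => (d - c) * F.n i) (fun i => (d - c) * F.n i) (fun _ => 0) ?_ ?_
    · have := bd_mul F hK (4 * (d - c))
      refine (congrArg F.S.Bd (funext fun i => ?_)).mp this
      ring
    · refine Eventually.of_forall fun i ω ω' p p' e => ?_
      refine ⟨fun k => ?_, fun k => ?_, ?_⟩
      · have e1 : (F.N c i ω').τ k / 2 ^ ((d - c) * F.n i) = (F.N c i ω).τ k / 2 ^ ((d - c) * F.n i) :=
          congrFun (congrArg Nd.τ e) k
        have e2 : |((F.N c i ω').τ k : ℝ) - (F.N c i ω).τ k| ≤ (2 ^ ((d - c) * F.n i) : ℕ) :=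
          close_of_ediv (by positivity) (by push_cast; exact e1)
        rw [one_mul]
        exact_mod_cast e2
      · have e1 : (F.N c i ω').o k / 2 ^ ((d - c) * F.n i) = (F.N c i ω).o k / 2 ^ ((d - c) * F.n i) :=
          congrFun (congrArg Nd.o e) k
        have e2 : |((F.N c i ω').o k : ℝ) - (F.N c i ω).o k| ≤ (2 ^ ((d - c) * F.n i) : ℕ) :=
          close_of_ediv (by positivity) (by push_cast; exact e1)
        rw [one_mul]
        exact_mod_cast e2
      · have e0 : (F.sig c d i ω').T = (F.sig c d i ω).T := congrArg Nd.T e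
        have e1 : (F.N c i ω').T = (F.N c i ω).T := e0
        rw [e1, sub_self, abs_zero]
        positivity
  refine h1.trans (le_of_eq ?_)
  have h4 : (fun i => 2 * ((d - c) * F.n i) + 2 * ((d - c) * F.n i) + 0) = fun i => 4 * (d - c) * F.n i := by
    funext i
    ring
  rw [h4, nu_mul F hK (4 * (d - c))]
  push_cast [Nat.cast_sub hcd]
  ring

/-- the node of a higher level given the node -/
theorem hc_N_N (hK : 1 ≤ K) {c c' : ℕ} (hcc : c ≤ c') (hc' : c' ≤ K) :
    F.S.hc (F.N c') (F.N c) ≤ 2 * ((c':ℝ) - c) / K := by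
  have hT : H518.Tre F.S K F.N F.Y F.T F.sg := H518.tre F fun c hc => tame_N F hK hc
  have tY : Tame (F.Y c') := (tame_N F hK hc').mono (hT.YN c' hc')
  have h0 : F.S.hc (F.N c') (F.N c) ≤ F.S.hc (F.Y c') (F.N c) := by
    refine hc_le_of_zero (tame_N F hK hc') tY (hc_fn ?_)
    have := hT.NNY hcc hc'
    filter_upwards [this] with i hi ω ω' p p' e
    refine hi ω ω' p p' ?_
    have e1 : F.Y c' i ω = F.Y c' i ω' := congrArg Prod.fst e
    have e2 : F.N c i ω = F.N c i ω' := congrArg Prod.snd e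
    exact Prod.ext e2 e1
  set X : F.S.RV Nd := fun i ω => ⟨F.Y c' i ω, 0, 0⟩ with hX
  have h2 : F.S.hc (F.Y c') (F.N c) = F.S.hc X (F.N c) := by
    refine hc_congr ?_ ?_ (Eventually.of_forall fun _ _ _ _ _ e => e) (Eventually.of_forall fun _ _ _ _ _ e => e)
    · refine Eventually.of_forall fun i ω ω' _ _ e => ?_
      have e1 : X i ω = X i ω' := congrArg Prod.fst e
      have e2 : (X i ω).τ = (X i ω').τ := congrArg Nd.τ e1
      exact e2
    · refine Eventually.of_forall fun i ω ω' _ _ e => ?_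
      have e1 : F.Y c' i ω = F.Y c' i ω' := congrArg Prod.fst e
      show (⟨F.Y c' i ω, 0, 0⟩ : Nd) = ⟨F.Y c' i ω', 0, 0⟩
      rw [e1]
  have h1 : F.S.hc X (F.N c) ≤ F.S.nu fun i => 2 * ((c' - c) * F.n i) + 2 * 0 + 0 := by
    refine hc_nd_le 1 (fun i => (c' - c) * F.n i) (fun _ => 0) (fun _ => 0) ?_ ?_
    · have := bd_mul F hK (2 * (c' - c))
      refine (congrArg F.S.Bd (funext fun i => ?_)).mp this
      ring
    · refine Eventually.of_forall fun i ω ω' p p' e => ?_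
      refine ⟨fun k => ?_, fun k => by simp [hX], by simp [hX]⟩
      have a1 := (chn_of F p).tau_eq hcc hc' k
      have a2 := (chn_of F p').tau_eq hcc hc' k
      have e0 : F.N c i ω' = F.N c i ω := e
      have e2 : |((F.N c' i ω').τ k : ℝ) - (F.N c' i ω).τ k| ≤ (2 ^ ((c' - c) * F.n i) : ℕ) :=
        close_of_ediv (by positivity) (by push_cast; rw [← a1, ← a2, e0])
      show |(F.N c' i ω').τ k - (F.N c' i ω).τ k| ≤ _
      rw [one_mul]
      exact_mod_cast e2
  rw [h2] at h0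
  refine (h0.trans h1).trans (le_of_eq ?_)
  have h4 : (fun i => 2 * ((c' - c) * F.n i) + 2 * 0 + 0) = fun i => 2 * (c' - c) * F.n i := by
    funext i
    ring
  rw [h4, nu_mul F hK (2 * (c' - c))]
  push_cast [Nat.cast_sub hcc]
  ring

/-- the line of the piece is normalised -/
theorem lnA_lst {c d : ℕ} (hcd : c ≤ d) (hd : d ≤ 2 * c) (hc : c ≤ K) : LnA (F.lst c d) := by
  refine Eventually.of_forall fun i ω p => ⟨fun k => ?_, fun k => ?_⟩
  · show |Int.fract (((F.sig c d i ω).o k : ℝ) / 2 ^ ((2 * c - d) * F.n i))| ≤ 1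
    rw [abs_of_nonneg (Int.fract_nonneg _)]
    exact (Int.fract_lt_one _).le
  · show |F.s i (2 * c - d) (F.sig c d i ω).τ k| ≤ 1
    refine (F.slp i).bd _ _ k (by omega) ?_
    rw [sig_tau hcd hd hc p]
    exact (chn_of F p).cap _ (by omega)

/-- **(V5)** -/
theorem low_N (hK : 1 ≤ K) {c c' d : ℕ} (hcc : c ≤ c') (hcd' : c' ≤ d) (hd : d ≤ 2 * c) (hdK : d ≤ K) :
    F.S.hc (F.N c') (Sys.pr (tbs (F.m (2 * c - d)) (F.lst c d)) (F.ball c)) ≤
      4 * ((d:ℝ) - c) / K + 2 * ((c':ℝ) - c) / K := by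
  have hcd : c ≤ d := hcc.trans hcd'
  have hc : c ≤ K := hcd.trans hdK
  have hc' : c' ≤ K := hcd'.trans hdK
  set Y := Sys.pr (tbs (F.m (2 * c - d)) (F.lst c d)) (F.ball c) with hY
  have tN := tame_N F hK hc
  have tN' := tame_N F hK hc'
  have ts : Tame (F.sig c d) := tame_sig F hK hc d
  have h1 : F.S.hc (F.sig c d) Y = 0 := low_sig hcd hd hc
  have h2 : F.S.hc (F.N c') Y ≤ F.S.hc (F.N c') (Sys.pr (F.sig c d) Y) + F.S.hc (F.sig c d) Y := hc_le_add tN' ts Y
  have h3 : F.S.hc (F.N c') (Sys.pr (F.sig c d) Y) ≤ F.S.hc (F.N c') (F.sig c d) :=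
    hc_mono_right tN' (Eventually.of_forall fun _ _ _ _ _ e => congrArg Prod.fst e)
  have h4 : F.S.hc (F.N c') (F.sig c d) ≤ F.S.hc (F.N c') (Sys.pr (F.N c) (F.sig c d)) + F.S.hc (F.N c) (F.sig c d) :=
    hc_le_add tN' tN _
  have h5 : F.S.hc (F.N c') (Sys.pr (F.N c) (F.sig c d)) ≤ F.S.hc (F.N c') (F.N c) :=
    hc_mono_right tN' (Eventually.of_forall fun _ _ _ _ _ e => congrArg Prod.fst e)
  have h6 := hc_N_sig (F := F) hK hcd
  have h7 := hc_N_N (F := F) hK hcc hc'
  linarith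

end Vale.Agent.P122.H912
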