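import Vale.Agent.P122.H425.Res
import Vale.Agent.P127.U.ExcA

/-!
# P122 / H912 : a dense law is a law on the same space, with support in the support (helper912)

`psh d` : the system on the space of `S` with the law of `π`; `dps d : Dns (psh d) S` with `π = id`, `Spt (dps d)`;
entropies, values and excesses of pulled back variables are the same in `S'` and in `psh d`.
-/

set_option autoImplicit false

namespace Vale.Agent.P122.H912

open Filter Topology Finset Vale.Agent.P127 Vale.Agent.P127.Stk Vale.Agent.P127.U Vale.Agent.P127.U.Sys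
  Vale.Agent.P122.C2 Vale.Agent.P122.E Vale.Agent.P122.H425

variable {S' S : Sys} {α β : Type*} {γ : Type}

open Classical in
/-- the law of `π`, where its support is in the support of `S` -/
noncomputable def pshP (d : Dns S' S) (i : ℕ) : Law (S.Ω i) :=
  if ∀ ω, 0 < (S'.P i).pr (d.π i) ω → 0 < (S.P i).w ω then push (S'.P i) (d.π i) else S.P i

/-- the dense law on the same space -/
noncomputable def psh (d : Dns S' S) : Sys := ⟨S.Ω, S.fin, pshP d, S.L, S.Ltop⟩

theorem psh_eq (d : Dns S' S) : ∀ᶠ i in (uf : Filter ℕ), (psh d).P i = push (S'.P i) (d.π i) := by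
  filter_upwards [d.dom 1 one_pos] with i hi
  show pshP d i = _
  unfold pshP
  rw [if_pos]
  intro ω h
  by_contra hc
  have h0 : (S.P i).w ω = 0 := le_antisymm (not_lt.1 hc) ((S.P i).nn ω)
  have := hi ω
  rw [h0, mul_zero] at this
  linarith

theorem psh_w (d : Dns S' S) : ∀ᶠ i in (uf : Filter ℕ), ∀ ω, ((psh d).P i).w ω = (S'.P i).pr (d.π i) ω := by
  filter_upwards [psh_eq d] with i hi ω
  rw [hi]
  exact push_w _ _ _

/-- `psh d` is dense in `S` -/
noncomputable def dps (d : Dns S' S) : Dns (psh d) S where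
  π := fun _ ω => ω
  L_eq := rfl
  dom := by
    intro ε hε
    filter_upwards [d.dom ε hε, psh_w d] with i h1 h2 ω
    have h3 : ((psh d).P i).pr (fun ω => ω) ω = ((psh d).P i).w ω := pr_id _ _
    exact (h3.trans (h2 ω)).le.trans (h1 ω)

theorem psh_spt (d : Dns S' S) : Spt (dps d) := by
  intro i ω hω
  have h1 : 0 < (pshP d i).w ω := hω
  show 0 < (S.P i).w ω
  unfold pshP at h1
  split_ifs at h1 with h
  · exact h ω (lt_of_lt_of_eq h1 (push_w _ _ _))
  · exact h1

theorem psh_nm (d : Dns S' S) : (psh d).nm = S'.nm := by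
  funext i
  unfold Sys.nm
  rw [d.L_eq]
  rfl

theorem psh_hc (d : Dns S' S) (X : S.RV α) (Y : S.RV β) :
    S'.hc (d.pull X) (d.pull Y) = (psh d).hc ((dps d).pull X) ((dps d).pull Y) := by
  unfold Sys.hc
  refine ulim_congr ?_
  filter_upwards [psh_eq d] with i hi
  rw [← psh_nm d]
  congr 1
  have h1 : Stk.hc ((psh d).P i) ((dps d).pull X i) ((dps d).pull Y i) =
      Stk.hc (push (S'.P i) (d.π i)) (X i) (Y i) := by
    have : ∀ (Q Q' : Law (S.Ω i)), Q = Q' → Stk.hc Q (X i) (Y i) = Stk.hc Q' (X i) (Y i) := by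
      rintro Q _ rfl; rfl
    exact this _ _ hi
  rw [h1, push_hc]
  rfl

theorem psh_av (d : Dns S' S) (f : S.RV ℝ) : S'.av (d.pull f) = (psh d).av ((dps d).pull f) := by
  unfold Sys.av
  refine ulim_congr ?_
  filter_upwards [psh_eq d] with i hi
  have h1 : ((psh d).P i).ex ((dps d).pull f i) = (push (S'.P i) (d.π i)).ex (f i) := by
    have : ∀ (Q Q' : Law (S.Ω i)), Q = Q' → Q.ex (f i) = Q'.ex (f i) := by
      rintro Q _ rfl; rfl
    exact this _ _ hi
  rw [h1, push_ex]
  have h2 : ((psh d).L i : ℝ) = S'.L i := by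
    rw [d.L_eq]
    rfl
  rw [h2]
  rfl

theorem psh_val (d : Dns S' S) (B W : S.BX) (C : S.RV γ) :
    S'.val (d.pullB B) (d.pullB W) (d.pull C) =
      (psh d).val ((dps d).pullB B) ((dps d).pullB W) ((dps d).pull C) := by
  unfold Sys.val
  congr 1
  · exact psh_hc d (BX.lab B) (Sys.pr (BX.lab W) C)
  · exact psh_av d fun i ω => (B i).sz ω - (W i).sz ω

theorem psh_exc (d : Dns S' S) (B : S.BX) (C : S.RV γ) :
    S'.exc (d.pullB B) (d.pull C) = (psh d).exc ((dps d).pullB B) ((dps d).pull C) := by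
  unfold Sys.exc
  refine ulim_congr ?_
  filter_upwards [psh_w d] with i hi
  rw [← psh_nm d]
  congr 1
  exact excF_ext (S'.P i) ((psh d).P i) (d.π i) (fun ω => (hi ω).symm) (B i) (C i)

end Vale.Agent.P122.H912
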