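import Vale.Agent.P122.H912.Cnt
import Vale.Agent.P127.U.ExcB

/-!
# P122 / H912 : a box made thinner (helper912)

`low_thin` : the label of the box `(l, θ, k, n)` has entropy at most `3 (n - j')` given the label of `(l, θ, k, j')`.
-/

set_option autoImplicit false

namespace Vale.Agent.P122.H912

open Filter Topology Finset Vale.Agent.P127 Vale.Agent.P127.Stk Vale.Agent.P127.U Vale.Agent.P127.U.Sys
  Vale.Agent.P122.C2

/-- coordinates in the finer frame -/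
theorem thin_frame {θ θ' : ℝ} {k j n : ℕ} (hkj : k ≤ j) (hjn : j ≤ n) {u : Fin 2 → ℝ}
    (hθ : |θ' - θ| ≤ 2 * (1 / 2 : ℝ) ^ (j - k)) (h0 : |co θ' u 0| ≤ (1 / 2 : ℝ) ^ k) (h1 : |co θ' u 1| ≤ (1 / 2 : ℝ) ^ j) :
    |co θ u 0| ≤ 3 * (1 / 2 : ℝ) ^ k ∧ |co θ u 1| ≤ 3 * 2 ^ (n - j) * (1 / 2 : ℝ) ^ n := by
  have e : (1 / 2 : ℝ) ^ (j - k) * (1 / 2 : ℝ) ^ k = (1 / 2 : ℝ) ^ j := by
    rw [← pow_add]; congr 1; omega
  have e2 : (2:ℝ) ^ (n - j) * (1 / 2 : ℝ) ^ n = (1 / 2 : ℝ) ^ j := by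
    have : (1 / 2 : ℝ) ^ n = (1 / 2) ^ (n - j) * (1 / 2) ^ j := by
      rw [← pow_add]; congr 1; omega
    rw [this, ← mul_assoc, ← mul_pow]
    norm_num
  have hs : |Real.sin (θ - θ')| ≤ 2 * (1 / 2 : ℝ) ^ (j - k) := by
    refine le_trans Real.abs_sin_le_abs ?_
    rw [abs_sub_comm]
    exact hθ
  have hc := Real.abs_cos_le_one (θ - θ')
  have hs1 := Real.abs_sin_le_one (θ - θ')
  have hjk : (1 / 2 : ℝ) ^ j ≤ (1 / 2) ^ k := pow_le_pow_of_le_one (by norm_num) (by norm_num) hkj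
  have pk : (0:ℝ) < (1 / 2) ^ k := by positivity
  have pj : (0:ℝ) < (1 / 2) ^ j := by positivity
  constructor
  · rw [co_rot0 θ' θ u]
    refine (abs_add_le _ _).trans ?_
    rw [abs_mul, abs_mul]
    have a1 : |Real.cos (θ - θ')| * |co θ' u 0| ≤ 1 * (1 / 2) ^ k := mul_le_mul hc h0 (abs_nonneg _) (by norm_num)
    have a2 : |Real.sin (θ - θ')| * |co θ' u 1| ≤ 1 * (1 / 2) ^ j := mul_le_mul hs1 h1 (abs_nonneg _) (by norm_num)
    linarith
  · rw [co_rot1 θ' θ u, mul_assoc, e2]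
    refine (abs_add_le _ _).trans ?_
    rw [abs_mul, abs_mul, abs_neg]
    have a1 : |Real.cos (θ - θ')| * |co θ' u 1| ≤ 1 * (1 / 2) ^ j := mul_le_mul hc h1 (abs_nonneg _) (by norm_num)
    have a2 : |Real.sin (θ - θ')| * |co θ' u 0| ≤ 2 * (1 / 2) ^ (j - k) * (1 / 2) ^ k :=
      mul_le_mul hs h0 (abs_nonneg _) (by positivity)
    have a3 : 2 * (1 / 2 : ℝ) ^ (j - k) * (1 / 2) ^ k = 2 * (1 / 2) ^ j := by rw [mul_assoc, e]
    linarith

section finite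

variable {Ω : Type} [Fintype Ω] (P : Law Ω)

/-- a box made thinner, finite form -/
theorem hc_thin (θ : Ω → ℝ) (l : Ω → Ln) (k : Ω → ℕ) (j n : ℕ) (hjn : j ≤ n) (hk : ∀ ω, 0 < P.w ω → k ω ≤ j) :
    Stk.hc P (fun ω => U.lab (θ ω) (k ω) n (l ω)) (fun ω => U.lab (θ ω) (k ω) j (l ω)) ≤
      ((3 * (n - j) : ℕ) : ℝ) * Real.log 2 + 2 * Real.log (((2 * 4 + 1) ^ 5 : ℕ) : ℝ) := by
  have p2 : 1 ≤ 2 ^ (n - j) := Nat.one_le_two_pow
  set Y : Ω → Lab := fun ω => U.lab (θ ω) (k ω) j (l ω) with hY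
  set A : Ω → Nd := fun ω => ⟨0, 0, fl1 (n - k ω) (θ ω)⟩ with hA
  set φ : Ω → ℝ := fun ω => qa (n - k ω) (θ ω) with hφ
  set B : Ω → Nd := fun ω => ⟨fun r => fl1 (k ω) (co (φ ω) (if r = 0 then (l ω).1 else (l ω).2) 0),
    fun r => fl1 n (co (φ ω) (if r = 0 then (l ω).1 else (l ω).2) 1), 0⟩ with hB
  have hYe : ∀ ω ω', Y ω' = Y ω → k ω' = k ω ∧ fl1 (j - k ω) (θ ω') = fl1 (j - k ω) (θ ω) ∧
      ∀ r : Fin 2, fkj (k ω) j (co (qa (j - k ω) (θ ω')) (if r = 0 then (l ω').1 else (l ω').2)) =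
        fkj (k ω) j (co (qa (j - k ω) (θ ω)) (if r = 0 then (l ω).1 else (l ω).2)) := by
    intro ω ω' e
    simp only [hY, U.lab, Prod.mk.injEq, true_and] at e
    obtain ⟨e1, e2, e3, e4⟩ := e
    rw [e1] at e2 e3 e4
    refine ⟨e1, e2, fun r => ?_⟩
    fin_cases r
    · exact e3
    · exact e4
  have h1 := hc_nd_fin P A Y 4 0 0 (n - j) fun ω ω' p p' e => by
    obtain ⟨e1, e2, -⟩ := hYe ω ω' e
    refine ⟨fun r => by simp [hA], fun r => by simp [hA], ?_⟩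
    have h := hk ω p
    have c1 := U.fl1_close e2
    have c2 : (1 / 2 : ℝ) ^ (j - k ω) = ((2 ^ (n - j) : ℕ) : ℝ) * (1 / 2 : ℝ) ^ (n - k ω) := by
      have : (1 / 2 : ℝ) ^ (n - k ω) = (1 / 2) ^ (n - j) * (1 / 2) ^ (j - k ω) := by
        rw [← pow_add]; congr 1; omega
      rw [this, ← mul_assoc]
      push_cast
      rw [← mul_pow]
      norm_num
    rw [c2] at c1
    have c3 := U.fl1_sub_le c1
    show |fl1 (n - k ω') (θ ω') - fl1 (n - k ω) (θ ω)| ≤ _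
    rw [e1]
    refine c3.trans ?_
    exact_mod_cast (by omega : 2 ^ (n - j) + 1 ≤ 4 * 2 ^ (n - j))
  have h2 := hc_nd_fin P B (fun ω => (A ω, Y ω)) 4 0 (n - j) 0 fun ω ω' p p' e => by
    have eA : A ω' = A ω := congrArg Prod.fst e
    have eY : Y ω' = Y ω := congrArg Prod.snd e
    obtain ⟨e1, e2, e3⟩ := hYe ω ω' eY
    have e4 : fl1 (n - k ω') (θ ω') = fl1 (n - k ω) (θ ω) := congrArg Nd.T eA
    have e5 : φ ω' = φ ω := by
      simp only [hφ]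
      unfold qa
      rw [e4, e1]
    have hkj := hk ω p
    set ψ := qa (j - k ω) (θ ω) with hψ
    have e6 : qa (j - k ω) (θ ω') = ψ := by
      rw [hψ]
      unfold qa
      rw [e2]
    have hψφ : |ψ - φ ω| ≤ 2 * (1 / 2 : ℝ) ^ (j - k ω) := by
      have a1 := U.qa_close (n - k ω) (θ ω)
      have a2 := U.qa_close (j - k ω) (θ ω)
      have a3 : (1 / 2 : ℝ) ^ (n - k ω) ≤ (1 / 2) ^ (j - k ω) :=
        pow_le_pow_of_le_one (by norm_num) (by norm_num) (by omega)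
      have a4 : ψ - φ ω = (θ ω - φ ω) - (θ ω - ψ) := by ring
      rw [a4]
      refine (abs_sub _ _).trans ?_
      have a5 : |θ ω - φ ω| ≤ (1 / 2 : ℝ) ^ (n - k ω) := a1
      linarith
    have key : ∀ r : Fin 2,
        |co (φ ω) (fun q => (if r = 0 then (l ω').1 else (l ω').2) q - (if r = 0 then (l ω).1 else (l ω).2) q) 0| ≤
          3 * (1 / 2 : ℝ) ^ k ω ∧
        |co (φ ω) (fun q => (if r = 0 then (l ω').1 else (l ω').2) q - (if r = 0 then (l ω).1 else (l ω).2) q) 1| ≤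
          3 * 2 ^ (n - j) * (1 / 2 : ℝ) ^ n := by
      intro r
      have e7 := e3 r
      rw [e6] at e7
      unfold fkj at e7
      rw [Prod.mk.injEq] at e7
      have b0 := U.fl1_close e7.1
      have b1 := U.fl1_close e7.2
      rw [← co_sub] at b0 b1
      exact thin_frame hkj hjn hψφ b0 b1
    refine ⟨fun r => ?_, fun r => ?_, by simp [hB]⟩
    · have k1 := (key r).1
      rw [co_sub] at k1
      have k2 := U.fl1_sub_le (N := 3) (by exact_mod_cast k1)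
      show |fl1 (k ω') (co (φ ω') _ 0) - fl1 (k ω) (co (φ ω) _ 0)| ≤ _
      rw [e1, e5]
      refine k2.trans ?_
      norm_num
    · have k1 := (key r).2
      rw [co_sub] at k1
      have k2 := U.fl1_sub_le (N := 3 * 2 ^ (n - j)) (m := n) (by push_cast; exact k1)
      show |fl1 n (co (φ ω') _ 1) - fl1 n (co (φ ω) _ 1)| ≤ _
      rw [e5]
      refine k2.trans ?_
      exact_mod_cast (by omega : 3 * 2 ^ (n - j) + 1 ≤ 4 * 2 ^ (n - j))
  have h3 : Stk.hc P (fun ω => U.lab (θ ω) (k ω) n (l ω)) Y ≤ Stk.hc P (fun ω => (A ω, B ω)) Y := by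
    refine Stk.hc_mono_left P ?_
    intro ω ω' p p' e
    have eA : A ω = A ω' := congrArg (fun q => q.1.1) e
    have eB : B ω = B ω' := congrArg (fun q => q.1.2) e
    have eY : Y ω = Y ω' := congrArg Prod.snd e
    obtain ⟨e1, -, -⟩ := hYe ω' ω eY
    have e4 : fl1 (n - k ω) (θ ω) = fl1 (n - k ω') (θ ω') := congrArg Nd.T eA
    have e5 : qa (n - k ω) (θ ω) = qa (n - k ω') (θ ω') := by
      unfold qa
      rw [e4, e1]
    have t0 := congrFun (congrArg Nd.τ eB) 0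
    have t1 := congrFun (congrArg Nd.τ eB) 1
    have o0 := congrFun (congrArg Nd.o eB) 0
    have o1 := congrFun (congrArg Nd.o eB) 1
    simp only [hB, hφ, if_true, if_neg (one_ne_zero : (1 : Fin 2) ≠ 0)] at t0 t1 o0 o1
    show U.lab (θ ω) (k ω) n (l ω) = U.lab (θ ω') (k ω') n (l ω')
    unfold U.lab fkj
    rw [Prod.mk.injEq, Prod.mk.injEq, Prod.mk.injEq, Prod.mk.injEq, Prod.mk.injEq, Prod.mk.injEq]
    exact ⟨e1, rfl, e4, ⟨t0, o0⟩, ⟨t1, o1⟩⟩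
  have h4 := Stk.hc_pair P A B Y
  have h5 : Stk.hc P (fun ω => (A ω, B ω)) Y = Stk.hc P A Y + Stk.hc P B (fun ω => (A ω, Y ω)) := h4
  have e1 : ((2 * 0 + 2 * 0 + (n - j) : ℕ) : ℝ) * Real.log 2 + ((2 * 0 + 2 * (n - j) + 0 : ℕ) : ℝ) * Real.log 2 =
      ((3 * (n - j) : ℕ) : ℝ) * Real.log 2 := by
    push_cast
    ring
  linarith

end finite

section systems

variable {S : Sys}

/-- **(V2)** a box made thinner -/
theorem low_thin (l : S.RV Ln) (θ : S.RV ℝ) (k : S.RV ℕ) {j n : ℕ → ℕ} (hn : S.Bd n) (hjn : ∀ i, j i ≤ n i)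
    (hk : S.Ae fun i ω => k i ω ≤ j i) :
    S.hc (BX.lab (fun i => (⟨l i, θ i, k i, fun _ => n i⟩ : Bx (S.Ω i))))
      (BX.lab (fun i => (⟨l i, θ i, k i, fun _ => j i⟩ : Bx (S.Ω i)))) ≤ S.nu fun i => 3 * (n i - j i) := by
  refine hc_le_nu ?_ (2 * Real.log (((2 * 4 + 1) ^ 5 : ℕ) : ℝ)) ?_
  · obtain ⟨C, hC⟩ := hn
    refine ⟨3 * C, ?_⟩
    filter_upwards [hC] with i hi
    have h1 : ((n i - j i : ℕ) : ℝ) ≤ n i := by exact_mod_cast Nat.sub_le _ _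
    push_cast
    linarith
  · filter_upwards [hk] with i hi
    exact hc_thin (S.P i) (θ i) (l i) (k i) (j i) (n i) (hjn i) hi

end systems

end Vale.Agent.P122.H912
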